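import Crest.Agent.X212.Lix26.Defs
import Crest.Agent.X212.Rf65.Pr
import Crest.Agent.X212.Kit16.Pt

/-!
# Row 212, LIX / LIXP (helper51): the filler of the inside of a lens wall, job level
-/

set_option autoImplicit false
set_option linter.unusedSectionVars false
noncomputable section
open scoped Manifold ContDiff Topology InnerProductSpace
open Set Function Filter MeasureTheory

namespace Crest.Agent.X212.Lx51
open An M Nd18 Rdc90 Rf65 Lix26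
open Qab60 (Ab)

variable {Wi : Type} {X : Mf 4} {A κ lam : Type} [Fintype A] [Fintype κ] [Fintype lam]
  [DecidableEq lam] {M : Mark X A κ} {W : World M} {N : ML M lam} {Λ : Lns W N}
  {A' h : Type} [Fintype A'] [DecidableEq A'] [Fintype h] {r n : ℕ}
  (J : Job Wi Λ A' h r n) (c : M.Cl) (δ : ℝ) (l : A)

/-- the numbers of the fillers, local form -/
def NumL : Prop := ∀ z : J.Obc c, Go δ z {hp l false} →
  (Fl z (hp l false) → 0 ≤ ia δ z (hp l false) ∧ 0 ≤ idr δ z (hp l false)) ∧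
  ∀ ξ, Ab (J.B c) (J.G c z.s) (W.pc c (hp l false)) z.x ξ → EA 0 z (hp l false) →
    (kI z l = 1 / 4 → 2 ≤ ia δ z (hp l false) ∧ 0 ≤ idr δ z (hp l false)) ∧
    (kI z l = 1 → 1 ≤ ia δ z (hp l false) ∧ 3 ≤ ia δ z (hp l false) + idr δ z (hp l false))

variable {J c δ l}

theorem NumL.at (H : NumL J c δ l) : NumAt J c δ l := fun _ _ _ _ z _ _ g => H z g

theorem brk_crit' {S : Xs Wi κ lam} {q β ζ γ ζ' k j} (h : S.N.Brk S.D q β ζ γ ζ' k j)
    (a : S.N.Crit S.D β) : S.N.Crit S.D γ := by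
  induction h with
  | nil => exact a
  | bub _ ih => exact ih a
  | mov _ _ _ a' _ ih => exact ih a'

theorem int_of_near {x : ℝ} (h : ∀ ε > (0 : ℝ), ∃ m : ℤ, |x - m| < ε) : ∃ m : ℤ, x = m := by
  have : x ∈ closure (range ((↑) : ℤ → ℝ)) := Metric.mem_closure_iff.2 fun ε hε =>
    let ⟨m, k⟩ := h ε hε; ⟨_, ⟨m, rfl⟩, k⟩
  rw [Int.isClosedEmbedding_coe_real.isClosed_range.closure_eq] at this
  exact this.imp fun _ => Eq.symm

/-- abelian points fill -/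
theorem ta_un {π : Reg A} (hπ : π ∈ Pc c) {z : J.Obc c} {ξ}
    (a : Ab (J.B c) (J.G c z.s) (W.pc c π) z.x ξ) : z.TA π ∧ Un z π := by
  have R := a.rd
  have p : ParS (J.G c z.s).F z.x (W.pc c π) ξ :=
    ⟨fun x hx => (R.sm x hx).contMDiffWithinAt, R.mem, fun i x hx => R.par x hx i⟩
  have e : ∀ x ∈ W.pc c π, ‖ξ x‖ = 4 := fun x hx => by
    have := Abel74.norm_sq a.adm.ok (R.mem x hx) (R.sq x hx)
    nlinarith [norm_nonneg (ξ x)]
  have cn := Cyl58.isConnected_pc W.toCaps hπ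
  obtain ⟨x, hx⟩ := cn.1
  exact ⟨.inl (Kit16.lin_of_red a.adm.conn R.op cn.2 ⟨ξ, p, x, hx, fun k => by
    simpa [k] using e x hx⟩), ξ, ⟨p.sm, p.mem, p.par⟩, e⟩

/-- anti-self-dual of level zero -/
theorem fl0 {π : Reg A} (hπ : π ∈ Pc c) {z : J.Obc c} (g : Go δ z {π}) (e : EA 0 z π)
    (k : z.kap (W.pc c π) = 0) : Fl z π :=
  Dfl49.flat (Λ.B_ok _ _) (Λ.G_ok _ g.O) g.adm.ok g.adm.conn (Cyl58.isClopen_pc _ hπ).2 e.int
    (θ := 0) (by norm_num) (e.le.trans_eq (by norm_num)) k.le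

/-- **the filler** -/
theorem core (hJ : J.OK) (d0 : 0 < δ) (hl : l ∈ cylW c) (hπ : hp l false ∈ Pc c)
    (hN : Ink3.Nil (J.xs l).N) (py : PY (J.xs l).D 0) (sc : SC (M.sys.U (hp l false)))
    (hC : Cat J c) (hF : FilAt J c δ l) (hK : Flc J c) (wl : WlStmt (J.xs l).D) {y : J.Obc c}
    (hD : ∀ z z' : J.Obc c, z.s = y.s → z'.s = y.s → Go δ z {hp l false} → Go δ z' {hp l false} →
      (J.xs l).D.Eqv (z.β l false) (z'.β l false) → ∃ m : ℤ, kI z' l - kI z l = m)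
    (ad : y.x.Adm (J.B c) (J.G c y.s)) (g : Go δ y {hp l false}) (ea : EA 0 y (hp l false))
    (k0 : 0 ≤ kI y l) (cr : (J.xs l).N.Crit (J.xs l).D (y.β l false)) {ζ ζ' k j}
    (br : (J.xs l).N.Brk (J.xs l).D 0 (y.β l false) ζ (y.β l true) ζ' k j) :
    ∃ (z : J.Obc c) (e : ℕ), Fil δ 0 y z l (hp l false) ∧ kI y l + k = kI z l + e ∧
      (Fl z (hp l false) ∧ (e = 0 → Fl y (hp l false)) ∨
        ∃ ξ, Ab (J.B c) (J.G c z.s) (W.pc c (hp l false)) z.x ξ ∧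
          (kI z l = 1 / 4 ∧ dz (J.xs l).D (y.β l true) ≠ 3 ∨ kI z l = 1)) := by
  obtain ⟨w1, -, -, w4⟩ := wl _ 0 (hJ.xs l).1.yd hN py
  have hγ := w1 _ (brk_crit' br cr)
  obtain ⟨k1, k2⟩ := w4 _ _ _ _ _ _ cr br
  have hs : hp l false l = some false := if_pos rfl
  have bs : ∀ {z : J.Obc c}, Go δ z {hp l false} → Bs (J.xs l).D (z.β l false) := fun g =>
    g.bs (⟨l, hl⟩, false) ⟨_, rfl, hs⟩
  have a0 : ∀ {β}, Bs (J.xs l).D β → Eqv71.Ad0 (cy β) (J.xs l).D.B (J.xs l).D.G := fun h =>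
    ⟨h.adm.adm.ok, h.adm.adm.conn, h.adm.adm.sm, h.adm.adm.pos⟩
  by_cases z0 : kI y l + k = 0
  · have f := fl0 hπ g ea (by linarith)
    have j0 : j = 0 := by_contra fun e => by linarith [k2 e]
    have e : y.β l false = y.β l true := by
      generalize y.β l true = γ at br
      cases br with
      | nil => rfl
      | bub => omega
      | mov => omega
    exact ⟨y, 0, ⟨rfl, g, .inr f, ea, (hK hJ δ y _ l false d0 hπ hl hs sc g f).1, k0,
      e.symm ▸ ⟨_, _, Eqv71.ceq_refl hγ.ok.B hγ.ok.G (a0 hγ) isOpen_univ⟩⟩, by simp; linarith,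
      .inl ⟨f, fun _ => f⟩⟩
  obtain ⟨z, ξ, i, i2, zs, zg, ab, ze, ev, kz, od⟩ := hF y _ g.br g.O ad hγ
  obtain ⟨m, hm⟩ : ∃ m : ℤ, kI y l + k - kI z l = m := int_of_near fun ε hε => by
    obtain ⟨y', m, h1, h2, h3, h4⟩ := hC hJ l hl hN 0 py δ y _ _ ζ ζ' k j d0 hπ hs g cr br ε hε
    obtain ⟨_, _, e1⟩ := ev
    obtain ⟨_, _, e2⟩ := h3
    obtain ⟨m', h5⟩ := hD z y' zs h1 zg h2 ⟨_, _, Eqv71.ceq_trans_id hγ.ok.B hγ.ok.G isOpen_univ
      (a0 (bs zg)) (a0 hγ) (a0 (bs h2)) (Eqv71.ceq_symm_id hγ.ok.B hγ.ok.G isOpen_univ (a0 hγ)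
        (a0 (bs zg)) e1) e2⟩
    refine ⟨m' - m, ?_⟩
    rw [abs_sub_comm] at h4
    refine lt_of_eq_of_lt (congrArg abs ?_) h4
    push_cast
    simp only [kI] at h5 ⊢
    linarith
  have p : 0 < kI y l + k := lt_of_le_of_ne (add_nonneg k0 k1) (Ne.symm z0)
  have i4 : (i : ℝ) ^ 2 / 4 ≤ 1 := by
    have : (i : ℝ) ≤ 2 := by exact_mod_cast i2
    nlinarith [Nat.cast_nonneg (α := ℝ) i]
  have m0 : 0 ≤ m := by
    have : (-1 : ℝ) < m := by linarith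
    exact Int.lt_add_one_iff.1 (by exact_mod_cast (by linarith : (0 : ℝ) < m + 1))
  lift m to ℕ using m0
  obtain ⟨t1, t2⟩ := ta_un hπ ab
  refine ⟨z, m, ⟨zs, zg, t1, ze, t2, kz.ge.trans' (by positivity), ev⟩,
    by push_cast at hm; linarith, ?_⟩
  interval_cases i
  · refine .inl ⟨fl0 hπ zg ze (by simpa using kz), fun e => (z0 ?_).elim⟩
    subst e
    simpa [kz] using hm
  · exact .inr ⟨ξ, ab, .inl ⟨by simpa using kz, od rfl⟩⟩
  · exact .inr ⟨ξ, ab, .inr (kz.trans (by norm_num))⟩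

/-- the numbers of the fillers, in scenes -/
def NumLS {κ lam : Type} [Fintype κ] [Fintype lam] [DecidableEq lam] (Lm : G75.LM κ lam) : Prop :=
  ∀ (S : G75.Scene Lm) (D : S.Dat) i Wi r n (J : Job Wi (D.Λ i) (S.A ⊕ Unit) S.ls r n) c (l : S.ls),
    S.OK → J.OK → cylW c ⊆ J.m.1 → l.1 ∈ c.1 → Nl J l → ∃ δ₀ > (0 : ℝ), ∀ δ ∈ Ioc 0 δ₀, NumL J c δ l

end Crest.Agent.X212.Lx51
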